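import Mathlib
import Crest.Prelude.Def_MatchingPolytope
import Crest.Prelude.Def_MultiplicityCount

/-! Row 304, S0467: interface of the key lemma. -/

set_option autoImplicit false

namespace Crest.Agent.R304D

open Finset Crest.Matchings

/-- Edmonds' description of the perfect matching polytope of a loopless multigraph. -/
def EdmStmt : Prop :=
  ∀ (m k : ℕ) (ends : Fin k → Fin (2 * m) × Fin (2 * m)), (∀ e, (ends e).1 ≠ (ends e).2) →
    ∀ x : Fin k → ℝ, (∀ e, 0 ≤ x e) →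
      (∀ v, ∑ e ∈ univ.filter (fun e => (ends e).1 = v ∨ (ends e).2 = v), x e = 1) →
      (∀ S : Finset (Fin (2 * m)), Odd S.card →
        1 ≤ ∑ e ∈ univ.filter (fun e => ¬ ((ends e).1 ∈ S ↔ (ends e).2 ∈ S)), x e) →
      x ∈ pmPolytope ends

/-- The statement of S0465. -/
def EntStmt : Prop :=
  ∀ (m : ℕ), 1 ≤ m → ∀ (k : ℕ) (ends : Fin k → Fin (2 * m) × Fin (2 * m)),
    (∀ e, (ends e).1 ≠ (ends e).2) → ∀ p : Finset (Fin k) → ℝ, IsMatchingLaw ends p →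
    ∃ q : Finset (Fin k) → ℝ, IsMatchingLaw ends q ∧ (∀ e, marginal q e = marginal p e) ∧
      ∑ e, Real.negMulLog (marginal p e)
        - (2 - 2 / (m : ℝ)) * ∑ e, Real.negMulLog (1 - marginal p e) ≤ lawEntropy q

/-- KEY (from `EdmStmt`, `EntStmt`): an almost feasible point certifies many perfect matchings. -/
def KeyStmt : Prop :=
  ∀ (m L : ℕ) (w : Fin (2 * m) → Fin (2 * m) → ℕ) (x : Fin (2 * m) × Fin (2 * m) → ℝ) (v : ℝ),
    1 ≤ m → ∑ q ∈ ltPairs (2 * m), w q.1 q.2 ≤ 2 ^ L → 0 ≤ v → (∀ q, 0 ≤ x q) →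
    (∀ q ∈ ltPairs (2 * m), w q.1 q.2 = 0 → x q = 0) → ∑ q ∈ ltPairs (2 * m), x q = m →
    (∀ S : Finset (Fin (2 * m)), Odd S.card →
      1 - v ≤ ∑ q ∈ (ltPairs (2 * m)).filter (fun q => ¬ (q.1 ∈ S ↔ q.2 ∈ S)), x q) →
    ∑ q ∈ ltPairs (2 * m), x q * Real.log (w q.1 q.2 / x q)
        - 500 * (m : ℝ) ^ 3 * (L + m) * v - 2 * m ≤
      Real.log (multNumPerfectMatchings w + (1 / 2 : ℝ) ^ (m ^ 2 + 8 * m + 1))

end Crest.Agent.R304D
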