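import Crest.Agent.R302.CAP

/-!
Row 304: minimising a submodular function over the odd subsets of an even ground set in polynomial
time (Goemans–Ramakrishnan reduction to `n²` unconstrained minimisations).
-/

set_option autoImplicit false

namespace Crest.Agent.R304D

open Finset Crest.Agent.PT Crest.Agent.QC Crest.Agent.R317 Crest.Agent.R302

namespace ODD

section PTs

variable {α β : Type} [Enc α] [Enc β]

/-- An oracle computation run with the zero oracle is a plain polynomial-time computation. -/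
theorem toPT {F : Orc → α → β} (hF : OPT F) : PT (fun a => F (fun _ => 0) a) := by
  obtain ⟨P, h1, ⟨c, ⟨k, hk⟩, hc⟩, -, h4⟩ := id hF
  by_cases hne : Nonempty β
  swap
  · have : ∀ a : α, False := fun a => hne ⟨F (fun _ => 0) a⟩
    exact (PT.toRaw (α := α)).of_enc_eq (fun a => (this a).elim)
  obtain ⟨d⟩ := hne
  obtain ⟨ctl, k, hc, h1, h2⟩ := hF.controller'
  have getR : ∀ {γ : Type} [Enc γ] {s : γ → Q ⊕ β}, PT s →
      PT (fun a => (s a).elim (fun _ => d) id) := fun hs =>
    (PT.cond (pt_isRight hs) (PT.tail (PT.toRaw.comp hs))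
      (PT.toRaw.comp (PT.const d))).of_enc_eq (fun a => by rename_i s; cases s a <;> rfl)
  have getL : ∀ {γ : Type} [Enc γ] {s : γ → Q ⊕ β}, PT s →
      PT (fun a => (s a).elim id (fun _ => ((false, []) : Q))) := fun hs =>
    (PT.cond (pt_isRight hs) (PT.toRaw.comp (PT.const ((false, []) : Q)))
      (PT.tail (PT.toRaw.comp hs))).of_enc_eq (fun a => by rename_i s; cases s a <;> rfl)
  have hK : PT (fun x : α => (sz x + 2) ^ k) := by
    have := (PT.id' (α := α)).len
    fun_prop
  let st : α → ℕ → Tab → Tab := fun x _ tb => bif (ctl (tb, x)).isRight then tb else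
    ((ctl (tb, x)).elim id (fun _ => (false, [])), ⟨0⟩) :: tb
  have hst : ∀ x i, (Nat.rec ([] : Tab) (st x) i : Tab) = proto (fun _ => 0) ctl x i := by
    intro x i
    induction i with
    | zero => rfl
    | succ i ih =>
      show st x i (Nat.rec ([] : Tab) (st x) i) = _
      rw [ih]
      cases h : ctl (proto (fun _ => 0) ctl x i, x) with
      | inl q => simp [st, proto, h]
      | inr b => simp [st, proto, h]
  have hlen : ∀ x i, (proto (fun _ => 0) ctl x i).length ≤ i := by
    intro x i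
    induction i with
    | zero => exact le_rfl
    | succ i ih =>
      cases h : ctl (proto (fun _ => 0) ctl x i, x) with
      | inl q => simp only [proto, h, List.length_cons]; omega
      | inr b => simp only [proto, h]; omega
  have hc' : PT (fun p : α × ℕ × Tab => ctl (p.2.2, p.1)) := hc.comp (by fun_prop)
  have hI : PT (fun x : α => (Nat.rec ([] : Tab) (st x) ((sz x + 2) ^ k) : Tab)) := by
    refine PT.natRec hK (PT.const _) (PT.cond (pt_isRight hc') (by fun_prop)
      (pt_cons (PT.pair (getL hc') (PT.const _)) (by fun_prop)))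
      (B := fun x => (sz x + 2) ^ k * (2 * (2 * (sz x + 2) ^ k + sz (⟨0⟩ : Bin) + 1) + 1))
      (hK.pbNat.mul (((PB.const 2).mul ((((PB.const 2).mul hK.pbNat).add (PB.const _)).add
        (PB.const 1))).add (PB.const 1))) (fun x i hi => ?_)
    rw [hst]
    refine (sz_list_le _ _ (fun e he => ?_)).trans (Nat.mul_le_mul_right _ ((hlen _ _).trans hi))
    obtain ⟨e1, e2⟩ := h2 _ x i e he
    obtain ⟨q, ⟨v⟩⟩ := e
    simp only at e1
    subst e1
    simp only [sz_pair] at e2 ⊢
    omega
  refine (getR (hc.comp (hI.pair PT.id'))).congr (fun x => ?_)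
  simp only [hst, h1 _ x _ le_rfl]
  rfl

/-- Submodular minimisation with a polynomial-time function. -/
theorem pt_sfm {g : α → List Bool → ℤ} {n m : α → ℕ}
    (hg : PT (fun p : α × List Bool => g p.1 p.2)) (hn : PT n) (hm : PT m) :
    PT (fun a => sfm (g a) (n a) (m a)) :=
  toPT (opt_sfm (g := fun _ => g) (OPT.pt hg) hn hm)

theorem pt_capv {g : α → List Bool → ℤ} {n m a b : α → ℕ}
    (hg : PT (fun p : α × List Bool => g p.1 p.2)) (hn : PT n) (hm : PT m) (ha : PT a) (hb : PT b) :
    PT (fun x => CAP.capv (g x) (n x) (m x) (a x) (b x)) :=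
  toPT (CAP.opt_capv (g := fun _ => g) (OPT.pt hg) hn hm ha hb)

end PTs

section GR

variable {V : Type} [DecidableEq V]

theorem gr1 (F : Finset V → ℤ) (hs : ∀ A B, F (A ∪ B) + F (A ∩ B) ≤ F A + F B) (S : Finset V)
    (hS : Odd S.card) (hmin : ∀ T : Finset V, Odd T.card → F S ≤ F T) :
    ∃ a ∈ S, ∀ A ⊆ S, a ∈ A → F S ≤ F A := by
  by_contra hc
  push Not at hc
  have h1 : ∀ a, ∃ A : Finset V, a ∈ S → A ⊆ S ∧ a ∈ A ∧ F A < F S ∧
      ∀ X ⊆ S, a ∈ X → F A ≤ F X := by
    intro a
    by_cases ha : a ∈ S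
    · obtain ⟨A, hA, hA'⟩ := exists_min_image (S.powerset.filter (a ∈ ·)) F
        ⟨S, by simp [ha]⟩
      obtain ⟨B, b1, b2, b3⟩ := hc a ha
      simp only [mem_filter, mem_powerset, and_imp] at hA hA'
      exact ⟨A, fun _ => ⟨hA.1, hA.2, (hA' B b1 b2).trans_lt b3, hA'⟩⟩
    · exact ⟨∅, fun h => (ha h).elim⟩
  choose A hA using h1
  have ev : ∀ X : Finset V, F X < F S → Even X.card := fun X hX =>
    Nat.not_odd_iff_even.1 fun h => absurd (hmin X h) (not_le.2 hX)
  have cl : ∀ a ∈ S, ∀ X ⊆ S, F X < F S → F (X ∩ A a) < F S := by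
    intro a ha X hX hF
    have := hs X (A a)
    have := (hA a ha).2.2.2 (X ∪ A a) (union_subset hX (hA a ha).1) (mem_union_right _ (hA a ha).2.1)
    omega
  have h2 : ∀ I : Finset V, I ⊆ S → ∀ X ⊆ S, F X < F S → Even (X ∩ I.biUnion A).card := by
    intro I
    induction I using Finset.induction_on with
    | empty => simp
    | insert a I _ ih =>
      intro hI X hX hF
      have ha := hI (mem_insert_self _ _)
      have hI' := (subset_insert _ _).trans hI
      have e1 := ev _ (cl a ha X hX hF)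
      have e2 := ih hI' X hX hF
      have e3 := ih hI' _ (inter_subset_left.trans hX) (cl a ha X hX hF)
      have e4 := card_union_add_card_inter (X ∩ A a) (X ∩ I.biUnion A)
      have e5 : X ∩ A a ∩ (X ∩ I.biUnion A) = X ∩ A a ∩ I.biUnion A := by
        ext j; simp only [mem_inter]; tauto
      rw [e5, ← inter_union_distrib_left] at e4
      rw [biUnion_insert]
      rw [Nat.even_iff] at *
      omega
  have h3 : ∀ I : Finset V, I ⊆ S → Even (I.biUnion A).card := by
    intro I
    induction I using Finset.induction_on with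
    | empty => simp
    | insert a I _ ih =>
      intro hI
      have ha := hI (mem_insert_self _ _)
      have hI' := (subset_insert _ _).trans hI
      have e1 := ev _ (hA a ha).2.2.1
      have e2 := ih hI'
      have e3 := h2 I hI' _ (hA a ha).1 (hA a ha).2.2.1
      have e4 := card_union_add_card_inter (A a) (I.biUnion A)
      rw [biUnion_insert]
      rw [Nat.even_iff] at *
      omega
  have h4 : S.biUnion A = S := by
    apply Subset.antisymm
    · exact biUnion_subset.2 fun a ha => (hA a ha).1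
    · exact fun a ha => mem_biUnion.2 ⟨a, ha, (hA a ha).2.1⟩
  have := h3 S Subset.rfl
  rw [h4] at this
  exact Nat.not_odd_iff_even.2 this hS

/-- Goemans–Ramakrishnan. -/
theorem gr [Fintype V] (hV : Even (Fintype.card V)) (F : Finset V → ℤ)
    (hs : ∀ A B, F (A ∪ B) + F (A ∩ B) ≤ F A + F B) (S : Finset V)
    (hS : Odd S.card) (hmin : ∀ T : Finset V, Odd T.card → F S ≤ F T) :
    ∃ a ∈ S, ∃ b, b ∉ S ∧ ∀ T, a ∈ T → b ∉ T → F S ≤ F T := by
  have hc : ∀ T : Finset V, Odd T.card → Odd Tᶜ.card := by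
    intro T hT
    have := card_add_card_compl T
    rw [Nat.odd_iff] at *
    rw [Nat.even_iff] at hV
    omega
  obtain ⟨a, ha, h1⟩ := gr1 F hs S hS hmin
  obtain ⟨b, hb, h2⟩ := gr1 (fun X => F Xᶜ) (fun A B => by
    have := hs Aᶜ Bᶜ
    simp only [compl_union, compl_inter]; omega) Sᶜ (hc S hS) (fun T hT => by
      simpa using hmin _ (hc T hT))
  refine ⟨a, ha, b, mem_compl.1 hb, fun T hT hT' => ?_⟩
  have e1 := h1 (T ∩ S) inter_subset_right (mem_inter.2 ⟨hT, ha⟩)
  have e2 := h2 (T ∪ S)ᶜ (compl_subset_compl.2 subset_union_right)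
    (by simp [hT', mem_compl.1 hb])
  have e3 := hs T S
  simp only [compl_compl] at e2
  omega

end GR

/-- binary value of an indicator list -/
def bvl (n : ℕ) (l : List Bool) : ℕ := ∑ j ∈ range n, if l.getD j false = true then 2 ^ j else 0

theorem bvl_spec (n : ℕ) (l : List Bool) :
    bvl n l < 2 ^ n ∧ ∀ i < n, (bvl n l).testBit i = l.getD i false := by
  induction n with
  | zero => simp [bvl]
  | succ n ih =>
    have e : bvl (n + 1) l = 2 ^ n * (if l.getD n false = true then 1 else 0) + bvl n l := by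
      unfold bvl; rw [sum_range_succ]; split_ifs <;> ring
    refine ⟨?_, fun i hi => ?_⟩
    · rw [e, pow_succ]; have := ih.1; split_ifs <;> omega
    · rw [e, Nat.testBit_two_pow_mul_add _ ih.1]
      by_cases h : i < n
      · rw [if_pos h, ih.2 i h]
      · have : i = n := by omega
        subst this
        rw [if_neg h]
        cases l.getD i false <;> simp

theorem bvl_bits {n : ℕ} (S : Finset (Fin n)) : (bvl n (bitsOf S) : ℤ) = ∑ j ∈ S, 2 ^ (j : ℕ) := by
  unfold bvl
  rw [← Fin.sum_univ_eq_sum_range (fun j => if (bitsOf S).getD j false = true then 2 ^ j else 0)]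
  simp only [getD_bitsOf, decide_eq_true_eq]
  rw [← sum_filter]
  simp

/-- perturbed function -/
def pert (g : List Bool → ℤ) (n m : ℕ) (l : List Bool) : ℤ := 2 ^ n * (g l + 2 ^ m) + bz (bvl n l)

/-- decoding of the set from the value -/
def dec (n : ℕ) (v : ℤ) : List Bool := mkL n (fun j => decide (v.toNat / 2 ^ j % 2 = 1))

/-- number of `true` entries is odd -/
def oddL (n : ℕ) (l : List Bool) : Prop :=
  (∑ j ∈ range n, if l.getD j false = true then 1 else 0) % 2 = 1

open Classical in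
/-- the candidates -/
noncomputable def cand (g : List Bool → ℤ) (n m a b : ℕ) : ℤ :=
  if a ≠ b ∧ oddL n (dec n (CAP.capv (pert g n m) n (n + m + 2) a b)) then
    2 ^ (n + m + 2) - CAP.capv (pert g n m) n (n + m + 2) a b else 0

theorem oddL_bits {n : ℕ} (S : Finset (Fin n)) : oddL n (bitsOf S) ↔ Odd S.card := by
  unfold oddL
  rw [← Fin.sum_univ_eq_sum_range (fun j => if (bitsOf S).getD j false = true then 1 else 0)]
  simp only [getD_bitsOf, decide_eq_true_eq]
  rw [← sum_filter, Nat.odd_iff]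
  simp

end ODD

open ODD in
/-- The indicator list of an odd set of least value. -/
noncomputable def oddmin (g : List Bool → ℤ) (n m : ℕ) : List Bool :=
  dec n (2 ^ (n + m + 2) - maxTo n (fun a => maxTo n (fun b => cand g n m a b)))

open ODD in
theorem pt_oddmin {α : Type} [Enc α] {g : α → List Bool → ℤ} {n m : α → ℕ}
    (hg : PT (fun p : α × List Bool => g p.1 p.2)) (hn : PT n) (hm : PT m) :
    PT (fun a => oddmin (g a) (n a) (m a)) := by
  classical
  have h1 : PT (fun p : α × List Bool => pert (g p.1) (n p.1) (m p.1) p.2) := by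
    unfold pert bvl; fun_prop
  have h2 : PT (fun q : (α × ℕ) × ℕ =>
      CAP.capv (pert (g q.1.1) (n q.1.1) (m q.1.1)) (n q.1.1) (n q.1.1 + m q.1.1 + 2) q.1.2 q.2) :=
    pt_capv (g := fun q : (α × ℕ) × ℕ => pert (g q.1.1) (n q.1.1) (m q.1.1))
      (h1.comp (f := fun p : ((α × ℕ) × ℕ) × List Bool => (p.1.1.1, p.2)) (by fun_prop))
      (by fun_prop) (by fun_prop) (by fun_prop) (by fun_prop)
  have h3 : PT (fun p : ℕ × ℕ × ℕ × ℕ × ℤ => if p.2.2.1 ≠ p.2.2.2.1 ∧ oddL p.1 (dec p.1 p.2.2.2.2) then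
      (2 : ℤ) ^ (p.1 + p.2.1 + 2) - p.2.2.2.2 else 0) := by
    unfold oddL dec; fun_prop
  have h4 : PT (fun q : (α × ℕ) × ℕ => cand (g q.1.1) (n q.1.1) (m q.1.1) q.1.2 q.2) :=
    h3.comp (f := fun q : (α × ℕ) × ℕ => (n q.1.1, m q.1.1, q.1.2, q.2,
      CAP.capv (pert (g q.1.1) (n q.1.1) (m q.1.1)) (n q.1.1) (n q.1.1 + m q.1.1 + 2) q.1.2 q.2))
      (PT.pair (by fun_prop) (PT.pair (by fun_prop) (PT.pair (by fun_prop)
        (PT.pair (by fun_prop) h2))))
  have h5 : PT (fun a => maxTo (n a) (fun x => maxTo (n a) (fun b => cand (g a) (n a) (m a) x b))) :=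
    pt_maxTo hn (pt_maxTo (n := fun p : α × ℕ => n p.1)
      (f := fun p b => cand (g p.1) (n p.1) (m p.1) p.2 b) (by fun_prop) h4)
  have h6 : PT (fun p : ℕ × ℤ => dec p.1 p.2) := by unfold dec; fun_prop
  exact h6.comp (f := fun a => (n a, (2 : ℤ) ^ (n a + m a + 2) -
    maxTo (n a) (fun x => maxTo (n a) (fun b => cand (g a) (n a) (m a) x b))))
    (PT.pair hn (PT.intSub (by fun_prop) h5))

open ODD in
/-- Correctness: `n` even and positive, `F` submodular with `|F| ≤ 2 ^ m`. -/
theorem oddmin_spec {n m : ℕ} {g : List Bool → ℤ} (F : Finset (Fin n) → ℤ) (hn : Even n)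
    (hn0 : 0 < n) (hg : ∀ S, g (bitsOf S) = F S)
    (hs : ∀ A B, F (A ∪ B) + F (A ∩ B) ≤ F A + F B) (hM : ∀ S, |F S| ≤ 2 ^ m) :
    ∃ S : Finset (Fin n), oddmin g n m = bitsOf S ∧ Odd S.card ∧
      ∀ T : Finset (Fin n), Odd T.card → F S ≤ F T := by
  classical
  let P : Finset (Fin n) → ℤ := fun S => 2 ^ n * (F S + 2 ^ m) + bvl n (bitsOf S)
  have hP : ∀ S, pert g n m (bitsOf S) = P S := fun S => by simp only [pert, hg, P, bz]
  have hb : ∀ S : Finset (Fin n), (0 : ℤ) ≤ bvl n (bitsOf S) ∧ (bvl n (bitsOf S) : ℤ) < 2 ^ n :=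
    fun S => ⟨Int.natCast_nonneg _, by exact_mod_cast (bvl_spec n _).1⟩
  have p2 : (0 : ℤ) < 2 ^ n := by positivity
  have p3 : (1 : ℤ) ≤ 2 ^ m := one_le_pow₀ (by norm_num)
  have P0 : ∀ S, 0 ≤ P S := fun S => by
    have := abs_le.1 (hM S)
    exact add_nonneg (mul_nonneg p2.le (by omega)) (hb S).1
  have P1 : ∀ S, P S < 2 ^ (n + m + 2) := fun S => by
    have h1 := abs_le.1 (hM S)
    have h2 := (hb S).2
    have h3 : (2 : ℤ) ^ n * (F S + 2 ^ m) ≤ 2 ^ n * (2 * 2 ^ m) :=
      mul_le_mul_of_nonneg_left (by omega) p2.le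
    have h4 : (2 : ℤ) ^ n * 1 ≤ 2 ^ n * 2 ^ m := mul_le_mul_of_nonneg_left p3 p2.le
    have h5 : (2 : ℤ) ^ (n + m + 2) = 4 * (2 ^ n * 2 ^ m) := by ring
    simp only [P]; linarith
  have Ps : Sub P := by
    intro A B
    have h1 := mul_le_mul_of_nonneg_left (hs A B) p2.le
    have h2 := sum_union_inter (s₁ := A) (s₂ := B) (f := fun j : Fin n => (2 : ℤ) ^ (j : ℕ))
    simp only [P, bvl_bits]; linarith
  have Pd : ∀ S, dec n (P S) = bitsOf S := by
    intro S
    refine mkL_eq_bitsOf _ _ (fun j => ?_)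
    have e : (P S).toNat = 2 ^ n * (F S + 2 ^ m).toNat + bvl n (bitsOf S) := by
      have h1 := abs_le.1 (hM S)
      have : (0 : ℤ) ≤ F S + 2 ^ m := by omega
      apply Int.natCast_inj.1
      rw [Int.toNat_of_nonneg (P0 S)]
      push_cast
      rw [Int.toNat_of_nonneg this]
    rw [e, ← Nat.testBit_eq_decide_div_mod_eq, Nat.testBit_two_pow_mul_add _ (bvl_spec n _).1,
      if_pos j.2, (bvl_spec n _).2 j j.2, getD_bitsOf]
    simp
  have hcap : ∀ a b : Fin n, a ≠ b → ∃ T : Finset (Fin n), a ∈ T ∧ b ∉ T ∧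
      CAP.capv (pert g n m) n (n + m + 2) a b = P T ∧ ∀ U, a ∈ U → b ∉ U → P T ≤ P U := by
    intro a b hab
    obtain ⟨T, hT, hT'⟩ := exists_min_image (univ.filter fun U : Finset (Fin n) => a ∈ U ∧ b ∉ U) P
      ⟨{a}, by simp [hab.symm]⟩
    simp only [mem_filter, mem_univ, true_and, and_imp] at hT hT'
    refine ⟨T, hT.1, hT.2, ?_, hT'⟩
    have h := fun θ => CAP.capv_spec (m := n + m + 2) hP Ps P0 (fun S => (P1 S).le) a b hab θ
    apply le_antisymm
    · by_contra hc
      exact lt_irrefl _ ((h (P T)).1 (not_le.1 hc) T hT.1 hT.2)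
    · have := (h (P T - 1)).2 (fun U u1 u2 => by have := hT' U u1 u2; omega)
      omega
  obtain ⟨S, hS, hS'⟩ := exists_min_image (univ.filter fun U : Finset (Fin n) => Odd U.card) P
    ⟨{⟨0, hn0⟩}, by simp⟩
  simp only [mem_filter, mem_univ, true_and] at hS hS'
  refine ⟨S, ?_, hS, fun T hT => ?_⟩
  · have up : ∀ a < n, ∀ b < n, cand g n m a b ≤ 2 ^ (n + m + 2) - P S := by
      intro a ha b hb'
      unfold cand
      split_ifs with h
      · obtain ⟨T, -, -, e, -⟩ := hcap ⟨a, ha⟩ ⟨b, hb'⟩ (fun e => h.1 (congrArg Fin.val e))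
        simp only at e
        rw [e, Pd, oddL_bits] at h
        have := hS' T h.2
        omega
      · have := P1 S; omega
    obtain ⟨a, ha, b, hb', hab⟩ := gr (by simpa using hn) P Ps S hS hS'
    have hne : a ≠ b := fun e => hb' (e ▸ ha)
    obtain ⟨T, t1, t2, e, t3⟩ := hcap a b hne
    have e2 : P T = P S := le_antisymm (t3 S ha hb') (hab T t1 t2)
    have lo : cand g n m a b = 2 ^ (n + m + 2) - P S := by
      unfold cand
      rw [e, e2, Pd, oddL_bits, if_pos ⟨fun h => hne (Fin.ext h), hS⟩]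
    have e3 : maxTo n (fun a => maxTo n (fun b => cand g n m a b)) = 2 ^ (n + m + 2) - P S := by
      apply le_antisymm
      · have := P1 S
        rcases Sfm.maxTo_cases n (fun a => maxTo n (fun b => cand g n m a b)) with h | ⟨v, hv, h⟩
        · omega
        · rw [h]
          rcases Sfm.maxTo_cases n (fun b => cand g n m v b) with h | ⟨u, hu, h⟩
          · omega
          · rw [h]; exact up v hv u hu
      · rw [← lo]
        exact (Sfm.le_maxTo (fun b => cand g n m a b) b.2).trans
          (Sfm.le_maxTo (fun a => maxTo n (fun b => cand g n m a b)) a.2)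
    unfold oddmin
    rw [e3, sub_sub_cancel, Pd]
  · have h1 := hS' T hT
    have h2 := hb S
    have h3 := hb T
    by_contra hc
    have h4 : (2 : ℤ) ^ n * (F T + 1) ≤ 2 ^ n * F S := mul_le_mul_of_nonneg_left (by omega) p2.le
    simp only [P] at h1
    linarith [h2.1, h3.2]

end Crest.Agent.R304D
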